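import Vale.Agent.P101.Cuntz.Basic

/-!
# P101: Rørdam's lemma and the first rules for Cuntz subequivalence
-/

noncomputable section

namespace Vale.Agent.P101.Cuntz

open Filter Topology

variable {A : Type*} [CStarAlgebra A] [PartialOrder A] [StarOrderedRing A]

/-- **Rørdam's lemma**, exact form: if `‖a - b‖ < ε` then `(a - ε)₊ = star d * b * d`. -/
theorem exists_cut_eq {a b : A} (ha : 0 ≤ a) (hb : 0 ≤ b) {ε : ℝ} (h : ‖a - b‖ < ε) :
    ∃ d : A, star d * b * d = cut a ε := by
  have has : IsSelfAdjoint a := IsSelfAdjoint.of_nonneg ha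
  have hbs : IsSelfAdjoint b := IsSelfAdjoint.of_nonneg hb
  set η := (ε - ‖a - b‖) / 2 with hη
  have hη0 : 0 < η := by rw [hη]; linarith
  set b' := cut b η with hb'
  have hb'0 : 0 ≤ b' := cut_nonneg b η
  set δ := ‖a - b‖ + η with hδ
  have hδε : δ < ε := by rw [hδ, hη]; linarith [norm_nonneg (a - b)]
  -- `a - δ ≤ b'`
  have hdist : ‖a - b'‖ ≤ δ := by
    calc ‖a - b'‖ = ‖(a - b) + (b - b')‖ := by abel_nf
      _ ≤ ‖a - b‖ + ‖b - b'‖ := norm_add_le _ _
      _ ≤ δ := by rw [norm_sub_rev b b', hδ]; linarith [norm_cut_sub' hb hη0.le]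
  have hle : a - algebraMap ℝ A δ ≤ b' := by
    have h1 : IsSelfAdjoint (a - b') := has.sub (IsSelfAdjoint.of_nonneg hb'0)
    have h2 : a - b' ≤ algebraMap ℝ A δ :=
      h1.le_algebraMap_norm_self.trans (algebraMap_mono A hdist)
    rwa [sub_le_comm] at h2
  let e : ℝ → ℝ := fun t => √(max (t - ε) 0 / (max t ε - δ))
  have hec : Continuous e := by
    refine Real.continuous_sqrt.comp (Continuous.div (by fun_prop) (by fun_prop) fun t => ?_)
    have := le_max_right t ε
    linarith
  set E := cfc e a with hE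
  have hEst : star E = E := star_cfc_real e a
  have hEaE : E * (a - algebraMap ℝ A δ) * E = cut a ε := by
    have h1 : a - algebraMap ℝ A δ = cfc (fun t => t - δ) a := by
      rw [cfc_sub (fun t => t) (fun _ => δ) a continuousOn_id continuousOn_const,
        cfc_id' ℝ a has, cfc_const δ a has]
    rw [h1, hE, ← cfc_mul e (fun t => t - δ) a hec.continuousOn (by fun_prop),
      ← cfc_mul (fun t => e t * (t - δ)) e a (hec.continuousOn.mul (by fun_prop)) hec.continuousOn,
      cut]
    refine cfc_congr fun t _ => ?_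
    simp only [e]
    rcases le_total t ε with ht | ht
    · rw [max_eq_right (show t - ε ≤ 0 by linarith)]
      simp
    · rw [max_eq_left (show 0 ≤ t - ε by linarith), max_eq_left ht, mul_comm (√_) (t - δ),
        mul_assoc, Real.mul_self_sqrt (div_nonneg (by linarith) (by linarith)),
        mul_div_cancel₀ _ (by linarith : t - δ ≠ 0)]
  set z := CFC.sqrt b' * E with hz
  have hzz : star z * z = E * b' * E := by
    rw [hz, star_mul, hEst, (IsSelfAdjoint.of_nonneg (CFC.sqrt_nonneg b')).star_eq,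
      show E * CFC.sqrt b' * (CFC.sqrt b' * E) = E * (CFC.sqrt b' * CFC.sqrt b') * E by noncomm_ring,
      CFC.sqrt_mul_sqrt_self b' hb'0]
  have hp : cut a ε ≤ star z * z := by
    rw [hzz, ← hEaE]
    simpa [hEst] using star_left_conjugate_le_conjugate hle E
  obtain ⟨y, hy, w, hw⟩ := exists_factor (cut_nonneg a ε) hp
  let κ : ℝ → ℝ := fun t => (√(max t η))⁻¹
  have hκc : Continuous κ := by
    refine Continuous.inv₀ (by fun_prop) fun t => Real.sqrt_ne_zero'.2 ?_
    have := le_max_right t η
    linarith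
  set K := cfc κ b with hK
  have hKst : star K = K := star_cfc_real κ b
  -- `K b K` is a unit on `b'`, hence on `y`
  have hunit : K * b * K * CFC.sqrt b' = CFC.sqrt b' := by
    have hsq : CFC.sqrt b' = cfc (fun t => √(max (t - η) 0)) b := by
      rw [CFC.sqrt_eq_iff b' _ hb'0 (cfc_nonneg fun _ _ => Real.sqrt_nonneg _),
        ← cfc_mul _ _ b (by fun_prop) (by fun_prop), hb', cut]
      exact cfc_congr fun t _ => Real.mul_self_sqrt (le_max_right _ _)
    rw [hK, cfc_sandwich hbs hκc.continuousOn, hsq,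
      ← cfc_mul (fun t => κ t * t * κ t) _ b (by fun_prop) (by fun_prop)]
    refine cfc_congr fun t _ => ?_
    rcases le_total t η with ht | ht
    · rw [max_eq_right (show t - η ≤ 0 by linarith)]
      simp
    · simp only [κ]
      rw [max_eq_left ht, mul_comm (√t)⁻¹ t, mul_assoc t, ← mul_inv, Real.mul_self_sqrt (by linarith),
        mul_inv_cancel₀ (by linarith : t ≠ 0), one_mul]
  have hy' : K * b * K * y = y := by
    refine tendsto_nhds_unique (hw.const_mul (K * b * K)) (hw.congr fun n => ?_)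
    rw [hz, show K * b * K * (CFC.sqrt b' * E * w n) = K * b * K * CFC.sqrt b' * (E * w n) by
      noncomm_ring, hunit, mul_assoc]
  refine ⟨K * y, ?_⟩
  calc star (K * y) * b * (K * y) = star y * (K * b * K * y) := by
        rw [star_mul, hKst]; noncomm_ring
    _ = cut a ε := by rw [hy', hy]

/-- Exact witnesses for Cuntz subequivalence of positive elements. -/
theorem Sub.exists_eq {a b : A} (ha : 0 ≤ a) (hb : 0 ≤ b) (h : Sub a b) {ε : ℝ} (hε : 0 < ε) :
    ∃ d : A, star d * b * d = cut a ε := by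
  obtain ⟨c, hc⟩ := h (ε / 2) (by linarith)
  obtain ⟨d, hd⟩ := exists_cut_eq ha (star_left_conjugate_nonneg hb c)
    (show ‖a - star c * b * c‖ < ε by rw [norm_sub_rev]; linarith)
  exact ⟨c * d, by rw [← hd, star_mul]; noncomm_ring⟩

theorem sub_of_cut {a b : A} (ha : 0 ≤ a) (h : ∀ ε > (0 : ℝ), Sub (cut a ε) b) : Sub a b := by
  intro ε hε
  obtain ⟨c, hc⟩ := h (ε / 2) (by linarith) (ε / 2) (by linarith)
  refine ⟨c, ?_⟩
  calc ‖star c * b * c - a‖ = ‖(star c * b * c - cut a (ε / 2)) + (cut a (ε / 2) - a)‖ := by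
        abel_nf
    _ ≤ ε / 2 + ε / 2 := (norm_add_le _ _).trans
        (add_le_add hc (norm_cut_sub' ha (by linarith)))
    _ = ε := by ring

theorem sub_one {a : A} (ha : 0 ≤ a) : Sub a 1 := fun ε hε =>
  ⟨CFC.sqrt a, by
    rw [mul_one, (IsSelfAdjoint.of_nonneg (CFC.sqrt_nonneg a)).star_eq,
      CFC.sqrt_mul_sqrt_self a ha, sub_self, norm_zero]
    exact hε.le⟩

/-- Functions vanishing at `0` give elements below `a`. -/
theorem sub_cfc {a : A} (ha : 0 ≤ a) {g : ℝ → ℝ} (hg : Continuous g) (hg0 : g 0 = 0)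
    (hgn : ∀ t, 0 ≤ t → 0 ≤ g t) : Sub (cfc g a) a := by
  intro ε hε
  have has : IsSelfAdjoint a := IsSelfAdjoint.of_nonneg ha
  obtain ⟨r, hr, hr'⟩ := Metric.continuous_iff.1 hg 0 ε hε
  let c : ℝ → ℝ := fun t => √(max (g t) 0 / max t (r / 2))
  have hcc : Continuous c := by
    refine Real.continuous_sqrt.comp (Continuous.div (by fun_prop) (by fun_prop) fun t => ?_)
    have := le_max_right t (r / 2)
    linarith
  refine ⟨cfc c a, ?_⟩
  rw [star_cfc_real, cfc_sandwich has hcc.continuousOn,
    ← cfc_sub (fun t => c t * t * c t) g a (by fun_prop) hg.continuousOn]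
  refine norm_cfc_le hε.le fun t ht => ?_
  have ht0 : 0 ≤ t := spectrum_nonneg_of_nonneg ha ht
  have hg' := hgn t ht0
  simp only [c, max_eq_left hg']
  rw [mul_comm (√_) t, mul_assoc,
    Real.mul_self_sqrt (div_nonneg hg' (le_max_of_le_right (by linarith)))]
  rcases le_total (r / 2) t with h | h
  · rw [max_eq_left h, mul_div_cancel₀ _ (by linarith : t ≠ 0), sub_self, norm_zero]
    exact hε.le
  · rw [max_eq_right h, Real.norm_eq_abs, abs_le]
    have hgt : g t < ε := by
      have := hr' t (by rw [Real.dist_eq, sub_zero, abs_of_nonneg ht0]; linarith)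
      rw [Real.dist_eq, hg0, sub_zero, abs_of_nonneg hg'] at this
      exact this
    have h1 : t * (g t / (r / 2)) ≤ g t := by
      rw [mul_div_assoc', div_le_iff₀ (by linarith)]
      nlinarith
    have h2 : 0 ≤ t * (g t / (r / 2)) := by positivity
    constructor <;> linarith

omit [PartialOrder A] [StarOrderedRing A] in
/-- `star x * x` and `x * star x` are Cuntz equivalent, up to squares. -/
theorem sub_sq_swap (x : A) : Sub (star x * x * (star x * x)) (x * star x) := fun ε hε =>
  ⟨x, by
    rw [show star x * (x * star x) * x = star x * x * (star x * x) by noncomm_ring, sub_self,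
      norm_zero]
    exact hε.le⟩

/-- A positive element is below its square. -/
theorem sub_sq {a : A} (ha : 0 ≤ a) : Sub a (a * a) := by
  intro ε hε
  have has : IsSelfAdjoint a := IsSelfAdjoint.of_nonneg ha
  let c : ℝ → ℝ := fun t => (√(max t ε))⁻¹
  have hcc : Continuous c := by
    refine Continuous.inv₀ (by fun_prop) fun t => Real.sqrt_ne_zero'.2 ?_
    have := le_max_right t ε
    linarith
  refine ⟨cfc c a, ?_⟩
  rw [star_cfc_real, show cfc c a * (a * a) * cfc c a = cfc c a * a * (a * cfc c a) by noncomm_ring]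
  conv_lhs => enter [1, 1]; rw [show cfc c a * a * (a * cfc c a) =
    cfc (fun t => c t * t * (t * c t)) a by
      rw [cfc_mul (fun t => c t * t) (fun t => t * c t) a (by fun_prop) (by fun_prop),
        cfc_mul c (fun t => t) a hcc.continuousOn continuousOn_id,
        cfc_mul (fun t => t) c a continuousOn_id hcc.continuousOn, cfc_id' ℝ a has]]
  conv_lhs => enter [1, 2]; rw [← cfc_id' ℝ a has]
  rw [← cfc_sub (fun t => c t * t * (t * c t)) (fun t => t) a (by fun_prop) continuousOn_id]
  refine norm_cfc_le hε.le fun t ht => ?_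
  have ht0 : 0 ≤ t := spectrum_nonneg_of_nonneg ha ht
  simp only [c]
  rw [show (√(max t ε))⁻¹ * t * (t * (√(max t ε))⁻¹) = t * t * ((√(max t ε))⁻¹ * (√(max t ε))⁻¹) by
    ring, ← mul_inv, Real.mul_self_sqrt (le_max_of_le_right hε.le)]
  rcases le_total ε t with h | h
  · rw [max_eq_left h, mul_assoc, mul_inv_cancel₀ (by linarith : t ≠ 0), mul_one, sub_self,
      norm_zero]
    exact hε.le
  · rw [max_eq_right h, Real.norm_eq_abs, abs_le]
    have h1 : t * t * ε⁻¹ ≤ t := by
      rw [← div_eq_mul_inv, div_le_iff₀ hε]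
      nlinarith
    have h2 : 0 ≤ t * t * ε⁻¹ := by positivity
    constructor <;> linarith

theorem sub_swap (x : A) : Sub (star x * x) (x * star x) :=
  sub_trans (sub_sq (star_mul_self_nonneg x)) (sub_sq_swap x)

/-- Orthogonal sums: subequivalences add up over orthogonal right-hand sides. -/
theorem sub_add {a a' b b' : A} (hb : 0 ≤ b) (hb' : 0 ≤ b') (horth : b * b' = 0)
    (h : Sub a b) (h' : Sub a' b') : Sub (a + a') (b + b') := by
  have hbs : IsSelfAdjoint b := IsSelfAdjoint.of_nonneg hb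
  have hbs' : IsSelfAdjoint b' := IsSelfAdjoint.of_nonneg hb'
  have horth' : b' * b = 0 := by
    have := congrArg star horth
    rwa [star_mul, star_zero, hbs.star_eq, hbs'.star_eq] at this
  -- witnesses inside the hereditary subalgebras
  have key : ∀ (u v : A), 0 ≤ u → Sub v u → ∀ ε > (0 : ℝ), ∃ x, ‖star (u * x) * u * (u * x) - v‖ ≤ ε := by
    intro u v hu hv ε hε
    have hus : IsSelfAdjoint u := IsSelfAdjoint.of_nonneg hu
    obtain ⟨c, hc⟩ := sub_trans hv (sub_trans (sub_sq hu) (sub_sq (by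
      simpa [hus.star_eq] using star_mul_self_nonneg u : (0 : A) ≤ u * u))) (ε / 2) (by linarith)
    obtain ⟨g, hg⟩ : ∃ g : A, ‖star g * (u * u * u) * g - u * u * (u * u)‖ ≤
        ε / (2 * (‖c‖ ^ 2 + 1)) := ⟨CFC.sqrt u, by
      rw [(IsSelfAdjoint.of_nonneg (CFC.sqrt_nonneg u)).star_eq]
      have hsu : CFC.sqrt u * (u * u * u) * CFC.sqrt u = u * u * (u * u) := by
        have hcomm : Commute (CFC.sqrt u) u := by
          conv_rhs => rw [← CFC.sqrt_mul_sqrt_self u hu]
          exact (Commute.refl _).mul_right (Commute.refl _)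
        rw [(hcomm.mul_right hcomm |>.mul_right hcomm).eq, mul_assoc,
          CFC.sqrt_mul_sqrt_self u hu]
        noncomm_ring
      rw [hsu, sub_self, norm_zero]
      positivity⟩
    refine ⟨g * c, ?_⟩
    have : star (u * (g * c)) * u * (u * (g * c)) - v =
        star c * (star g * (u * u * u) * g - u * u * (u * u)) * c +
          (star c * (u * u * (u * u)) * c - v) := by
      rw [star_mul, star_mul, hus.star_eq]; noncomm_ring
    rw [this]
    refine (norm_add_le _ _).trans ?_
    have h1 : ‖star c * (star g * (u * u * u) * g - u * u * (u * u)) * c‖ ≤ ε / 2 := by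
      calc _ ≤ ‖c‖ * (ε / (2 * (‖c‖ ^ 2 + 1))) * ‖c‖ := by
            refine (norm_mul_le _ _).trans (mul_le_mul_of_nonneg_right ?_ (norm_nonneg _))
            refine (norm_mul_le _ _).trans ?_
            rw [norm_star]
            gcongr
        _ = ε / 2 * (‖c‖ ^ 2 / (‖c‖ ^ 2 + 1)) := by field_simp
        _ ≤ ε / 2 * 1 := by gcongr; rw [div_le_one (by positivity)]; linarith
        _ = ε / 2 := mul_one _
    linarith
  intro ε hε
  obtain ⟨x, hx⟩ := key b a hb h (ε / 2) (by linarith)
  obtain ⟨y, hy⟩ := key b' a' hb' h' (ε / 2) (by linarith)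
  refine ⟨b * x + b' * y, ?_⟩
  have : star (b * x + b' * y) * (b + b') * (b * x + b' * y) =
      star (b * x) * b * (b * x) + star (b' * y) * b' * (b' * y) := by
    simp only [star_add, star_mul, hbs.star_eq, hbs'.star_eq, add_mul, mul_add, mul_assoc]
    simp [← mul_assoc b b', ← mul_assoc b' b, horth, horth']
  rw [this, show star (b * x) * b * (b * x) + star (b' * y) * b' * (b' * y) - (a + a') =
    (star (b * x) * b * (b * x) - a) + (star (b' * y) * b' * (b' * y) - a') by abel]
  refine (norm_add_le _ _).trans ?_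
  linarith

/-- `1` below `b` means that some `star c * b * c` is `1`. -/
theorem one_sub_iff {b : A} (hb : 0 ≤ b) : Sub 1 b ↔ ∃ c : A, star c * b * c = 1 := by
  refine ⟨fun h => ?_, fun ⟨c, hc⟩ => hc ▸ sub_conj b c⟩
  obtain ⟨d, hd⟩ := h.exists_eq zero_le_one hb (show (0 : ℝ) < 3 / 4 by norm_num)
  refine ⟨(2 : ℝ) • d, ?_⟩
  have h1 : cut (1 : A) (3 / 4) = (1 / 4 : ℝ) • (1 : A) := by
    conv_lhs => rw [← map_one (algebraMap ℝ A)]
    rw [cut, cfc_algebraMap]
    norm_num [Algebra.algebraMap_eq_smul_one]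
  rw [h1] at hd
  rw [star_smul, star_trivial, smul_mul_assoc, smul_mul_assoc, mul_smul_comm, smul_smul, hd,
    smul_smul]
  norm_num

theorem sub_cut {a : A} (ha : 0 ≤ a) {ε : ℝ} (hε : 0 ≤ ε) : Sub (cut a ε) a :=
  sub_of_le (cut_nonneg a ε) (cut_le ha hε)

/-- An element dominating a positive multiple of `1` is above `1`. -/
theorem one_sub_of_le {b : A} {c : ℝ} (hc : 0 < c) (h : c • (1 : A) ≤ b) : Sub 1 b := by
  have h0 : (0 : A) ≤ c • (1 : A) := smul_nonneg hc.le zero_le_one
  refine sub_trans (fun ε hε => ⟨(√c)⁻¹ • (1 : A), ?_⟩) (sub_of_le h0 h)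
  rw [star_smul, star_trivial, star_one, smul_mul_assoc, smul_mul_assoc, mul_smul_comm, smul_smul,
    one_mul, mul_one, smul_smul, ← mul_inv, Real.mul_self_sqrt hc.le, inv_mul_cancel₀ hc.ne',
    one_smul, sub_self, norm_zero]
  exact hε.le

/-- Star homomorphisms preserve Cuntz subequivalence. -/
theorem Sub.map {B : Type*} [CStarAlgebra B] [PartialOrder B] [StarOrderedRing B]
    (φ : A →⋆ₐ[ℂ] B) {a b : A} (h : Sub a b) : Sub (φ a) (φ b) := fun ε hε => by
  obtain ⟨c, hc⟩ := h ε hε
  refine ⟨φ c, ?_⟩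
  rw [← map_star, ← map_mul, ← map_mul, ← map_sub]
  exact (NonUnitalStarAlgHom.norm_apply_le φ _).trans hc

end Vale.Agent.P101.Cuntz
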