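import Mathlib

/-!
# P101: Cuntz subequivalence in unital C*-algebras

`Sub a b` says that `a` is Cuntz below `b`. For positive elements it is equivalent to the cut-downs
`cut a ε` being exactly of the form `star d * b * d`.
-/

noncomputable section

namespace Vale.Agent.P101.Cuntz

open Filter Topology

variable {A : Type*} [CStarAlgebra A] [PartialOrder A] [StarOrderedRing A]

/-- Cuntz subequivalence: `a` is a limit of elements `star c * b * c`. -/
def Sub (a b : A) : Prop := ∀ ε > (0 : ℝ), ∃ c : A, ‖star c * b * c - a‖ ≤ ε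

omit [PartialOrder A] [StarOrderedRing A] in
theorem sub_refl (a : A) : Sub a a := fun ε hε => ⟨1, by simpa using hε.le⟩

omit [PartialOrder A] [StarOrderedRing A] in
theorem sub_conj (b x : A) : Sub (star x * b * x) b := fun ε hε => ⟨x, by simpa using hε.le⟩

omit [PartialOrder A] [StarOrderedRing A] in
theorem sub_zero_left (b : A) : Sub 0 b := fun ε hε => ⟨0, by simpa using hε.le⟩

omit [PartialOrder A] [StarOrderedRing A] in
theorem sub_trans {a b c : A} (h₁ : Sub a b) (h₂ : Sub b c) : Sub a c := by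
  intro ε hε
  obtain ⟨x, hx⟩ := h₁ (ε / 2) (by linarith)
  obtain ⟨y, hy⟩ := h₂ (ε / (2 * (‖x‖ ^ 2 + 1))) (by positivity)
  refine ⟨y * x, ?_⟩
  have key : star (y * x) * c * (y * x) - a =
      star x * (star y * c * y - b) * x + (star x * b * x - a) := by
    rw [star_mul]; noncomm_ring
  rw [key]
  refine (norm_add_le _ _).trans ?_
  have h1 : ‖star x * (star y * c * y - b) * x‖ ≤ ε / 2 := by
    calc ‖star x * (star y * c * y - b) * x‖ ≤ ‖x‖ * ‖star y * c * y - b‖ * ‖x‖ := by
          refine (norm_mul_le _ _).trans (mul_le_mul_of_nonneg_right ?_ (norm_nonneg _))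
          refine (norm_mul_le _ _).trans (le_of_eq ?_)
          rw [norm_star]
      _ ≤ ‖x‖ * (ε / (2 * (‖x‖ ^ 2 + 1))) * ‖x‖ := by gcongr
      _ = ε / 2 * (‖x‖ ^ 2 / (‖x‖ ^ 2 + 1)) := by field_simp
      _ ≤ ε / 2 * 1 := by gcongr; rw [div_le_one (by positivity)]; linarith
      _ = ε / 2 := mul_one _
  linarith

omit [PartialOrder A] [StarOrderedRing A] in
theorem sub_of_tendsto {a b : A} {c : ℕ → A}
    (h : Tendsto (fun n => star (c n) * b * c n) atTop (𝓝 a)) : Sub a b := by
  intro ε hε
  obtain ⟨n, hn⟩ := (Metric.tendsto_atTop.1 h) ε hε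
  exact ⟨c n, by simpa [dist_eq_norm] using (hn n le_rfl).le⟩

/-! ### Functional calculus -/

/-- The function `t ↦ (max t 0 + δ)^(-1/2)`. -/
def rootInv (δ t : ℝ) : ℝ := (√(max t 0 + δ))⁻¹

theorem continuous_rootInv {δ : ℝ} (hδ : 0 < δ) : Continuous (rootInv δ) := by
  unfold rootInv
  refine Continuous.inv₀ (by fun_prop) fun t => Real.sqrt_ne_zero'.2 ?_
  have := le_max_right t 0
  linarith

theorem rootInv_mul_self {δ t : ℝ} (hδ : 0 < δ) (ht : 0 ≤ t) :
    rootInv δ t * t * rootInv δ t = t / (t + δ) := by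
  rw [rootInv, max_eq_left ht, mul_comm (√(t + δ))⁻¹ t, mul_assoc, ← mul_inv,
    Real.mul_self_sqrt (by linarith), div_eq_mul_inv]

omit [PartialOrder A] [StarOrderedRing A] in
theorem star_cfc_real (f : ℝ → ℝ) (a : A) : star (cfc f a) = cfc f a :=
  (cfc_predicate f a).star_eq

omit [PartialOrder A] [StarOrderedRing A] in
theorem cfc_sandwich {a : A} (ha : IsSelfAdjoint a) {f : ℝ → ℝ}
    (hf : ContinuousOn f (spectrum ℝ a)) :
    cfc f a * a * cfc f a = cfc (fun t => f t * t * f t) a := by
  rw [cfc_mul (fun t => f t * t) f a (hf.mul continuousOn_id) hf,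
    cfc_mul f (fun t => t) a hf continuousOn_id, cfc_id' ℝ a ha]

/-- If `0 ≤ a ≤ b` then `a` is Cuntz below `b`. -/
theorem sub_of_le {a b : A} (ha : 0 ≤ a) (hab : a ≤ b) : Sub a b := by
  intro ε hε
  have hb : 0 ≤ b := ha.trans hab
  have hbs : IsSelfAdjoint b := IsSelfAdjoint.of_nonneg hb
  set s := CFC.sqrt a with hs
  have hss : s * s = a := CFC.sqrt_mul_sqrt_self a ha
  have hst : star s = s := (IsSelfAdjoint.of_nonneg (CFC.sqrt_nonneg a)).star_eq
  set F := cfc (rootInv ε) b with hF
  set g : ℝ → ℝ := fun t => √(ε / (max t 0 + ε)) with hg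
  have hgc : Continuous g := by
    refine Real.continuous_sqrt.comp (Continuous.div (by fun_prop) (by fun_prop) fun t => ?_)
    have := le_max_right t 0
    linarith
  set G := cfc g b with hG
  have hFc : ContinuousOn (rootInv ε) (spectrum ℝ b) := (continuous_rootInv hε).continuousOn
  have e1 : F * b * F = 1 - G * G := by
    have h1 : F * b * F = cfc (fun t => rootInv ε t * t * rootInv ε t) b := by
      rw [cfc_mul (fun t => rootInv ε t * t) (rootInv ε) b (hFc.mul continuousOn_id) hFc,
        cfc_mul (rootInv ε) (fun t => t) b hFc continuousOn_id, cfc_id' ℝ b hbs]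
    have h2 : 1 - G * G = cfc (fun t => 1 - g t * g t) b := by
      rw [cfc_sub (fun _ => (1 : ℝ)) (fun t => g t * g t) b continuousOn_const
        (hgc.mul hgc).continuousOn, cfc_const_one ℝ b hbs,
        cfc_mul g g b hgc.continuousOn hgc.continuousOn]
    rw [h1, h2]
    refine cfc_congr fun t ht => ?_
    have ht0 : 0 ≤ t := spectrum_nonneg_of_nonneg hb ht
    rw [rootInv_mul_self hε ht0, hg]
    simp only [max_eq_left ht0]
    rw [Real.mul_self_sqrt (by positivity)]
    field_simp
    ring
  refine ⟨F * s, ?_⟩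
  have e2 : star (F * s) * b * (F * s) - a = -(star (G * s) * (G * s)) := by
    rw [star_mul, star_mul, hst, hF, hG, star_cfc_real, star_cfc_real, ← hF, ← hG,
      show s * F * b * (F * s) = s * (F * b * F) * s by noncomm_ring, e1]
    calc s * (1 - G * G) * s - a = s * s - a - s * G * (G * s) := by noncomm_ring
      _ = -(s * G * (G * s)) := by rw [hss]; noncomm_ring
  rw [e2, norm_neg, CStarRing.norm_star_mul_self, ← CStarRing.norm_self_mul_star,
    star_mul, hst, hG, star_cfc_real, ← hG, show G * s * (s * G) = G * (s * s) * G by noncomm_ring,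
    hss]
  have hGa : star G * a * G ≤ star G * b * G := star_left_conjugate_le_conjugate hab G
  have hGa0 : 0 ≤ star G * a * G := star_left_conjugate_nonneg ha G
  have hGs : star G = G := star_cfc_real g b
  rw [hGs] at hGa hGa0
  refine (CStarAlgebra.norm_le_norm_of_nonneg_of_le hGa0 hGa).trans ?_
  have e3 : G * b * G = cfc (fun t => g t * t * g t) b := by
    rw [cfc_mul (fun t => g t * t) g b (hgc.continuousOn.mul continuousOn_id) hgc.continuousOn,
      cfc_mul g (fun t => t) b hgc.continuousOn continuousOn_id, cfc_id' ℝ b hbs]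
  rw [e3]
  refine norm_cfc_le hε.le fun t ht => ?_
  have ht0 : 0 ≤ t := spectrum_nonneg_of_nonneg hb ht
  rw [hg]
  simp only [max_eq_left ht0]
  rw [mul_comm (√(ε / (t + ε))) t, mul_assoc, Real.mul_self_sqrt (by positivity),
    Real.norm_of_nonneg (by positivity)]
  rw [mul_div_assoc', div_le_iff₀ (by positivity)]
  nlinarith

/-- `cut a ε` is `(a - ε)₊`. -/
def cut (a : A) (ε : ℝ) : A := cfc (fun t => max (t - ε) 0) a

theorem cut_nonneg (a : A) (ε : ℝ) : 0 ≤ cut a ε :=
  cfc_nonneg fun _ _ => le_max_right _ _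

omit [PartialOrder A] [StarOrderedRing A] in
theorem norm_cut_sub {a : A} (ha : IsSelfAdjoint a) (hs : ∀ t ∈ spectrum ℝ a, 0 ≤ t) {ε : ℝ}
    (hε : 0 ≤ ε) : ‖cut a ε - a‖ ≤ ε := by
  have h : cut a ε - a = cfc (fun t => max (t - ε) 0 - t) a := by
    rw [cfc_sub (fun t => max (t - ε) 0) (fun t => t) a (by fun_prop) (by fun_prop), cfc_id' ℝ a ha]
    rfl
  rw [h]
  refine norm_cfc_le hε fun t ht => ?_
  rw [Real.norm_eq_abs, abs_le]
  have := hs t ht
  exact ⟨by nlinarith [le_max_left (t - ε) 0],
    by rcases max_cases (t - ε) 0 with ⟨h, -⟩ | ⟨h, -⟩ <;> linarith⟩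

theorem norm_cut_sub' {a : A} (ha : 0 ≤ a) {ε : ℝ} (hε : 0 ≤ ε) : ‖cut a ε - a‖ ≤ ε :=
  norm_cut_sub (IsSelfAdjoint.of_nonneg ha) (fun _ ht => spectrum_nonneg_of_nonneg ha ht) hε

theorem cut_le {a : A} (ha : 0 ≤ a) {ε : ℝ} (hε : 0 ≤ ε) : cut a ε ≤ a := by
  have h : cut a ε ≤ cfc (fun t => t) a := cfc_mono fun t ht => by
    have := spectrum_nonneg_of_nonneg ha ht
    exact max_le (by linarith) this
  rwa [cfc_id' ℝ a (IsSelfAdjoint.of_nonneg ha)] at h

omit [PartialOrder A] [StarOrderedRing A] in
theorem cut_cut {a : A} (ha : IsSelfAdjoint a) {ε η : ℝ} (hη : 0 ≤ η) :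
    cut (cut a ε) η = cut a (ε + η) := by
  rw [cut, cut, ← cfc_comp' (fun t => max (t - η) 0) (fun t => max (t - ε) 0) a]
  refine cfc_congr fun t _ => ?_
  rcases le_total (t - ε) 0 with h | h
  · rw [max_eq_right h, max_eq_right (by linarith), max_eq_right (by linarith)]
  · rw [max_eq_left h, sub_sub]

/-- **Factorisation**: if `0 ≤ p ≤ star z * z` then `p = star y * y` with `y` a limit of
elements of `z A`. -/
theorem exists_factor {p z : A} (hp : 0 ≤ p) (hle : p ≤ star z * z) :
    ∃ y : A, star y * y = p ∧ ∃ w : ℕ → A, Tendsto (fun n => z * w n) atTop (𝓝 y) := by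
  set q := star z * z with hq
  have hq0 : 0 ≤ q := star_mul_self_nonneg z
  have hqs : IsSelfAdjoint q := IsSelfAdjoint.of_nonneg hq0
  set s := CFC.sqrt p with hs
  have hss : s * s = p := CFC.sqrt_mul_sqrt_self p hp
  have hst : star s = s := (IsSelfAdjoint.of_nonneg (CFC.sqrt_nonneg p)).star_eq
  let δ : ℕ → ℝ := fun n => 1 / ((n : ℝ) + 1)
  have hδ : ∀ n, 0 < δ n := fun n => by positivity
  let w : ℕ → A := fun n => cfc (rootInv (δ n)) q * s
  have hbound : ∀ n m N : ℕ, N ≤ n → N ≤ m → ‖z * w n - z * w m‖ ^ 2 ≤ 4 * δ N := by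
    intro n m N hn hm
    let Φ : ℝ → ℝ := fun t => rootInv (δ n) t - rootInv (δ m) t
    have hΦc : Continuous Φ := (continuous_rootInv (hδ n)).sub (continuous_rootInv (hδ m))
    set U := cfc Φ q with hU
    have hd : z * w n - z * w m = z * U * s := by
      have : U = cfc (rootInv (δ n)) q - cfc (rootInv (δ m)) q :=
        cfc_sub (rootInv (δ n)) (rootInv (δ m)) q (continuous_rootInv (hδ n)).continuousOn
          (continuous_rootInv (hδ m)).continuousOn
      rw [this]
      simp only [w]
      noncomm_ring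
    set V := cfc (fun t => √(max t 0) * Φ t) q with hV
    have hVc : Continuous fun t : ℝ => √(max t 0) * Φ t := by fun_prop
    have hUU : U * q * U = V * V := by
      rw [hU, hV, ← cfc_mul (fun t => √(max t 0) * Φ t) (fun t => √(max t 0) * Φ t) q
        hVc.continuousOn hVc.continuousOn]
      rw [cfc_sandwich hqs hΦc.continuousOn]
      refine cfc_congr fun t ht => ?_
      have ht0 : 0 ≤ t := spectrum_nonneg_of_nonneg hq0 ht
      simp only [max_eq_left ht0]
      calc Φ t * t * Φ t = (√t * √t) * (Φ t * Φ t) := by rw [Real.mul_self_sqrt ht0]; ring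
        _ = √t * Φ t * (√t * Φ t) := by ring
    have hUst : star U = U := star_cfc_real Φ q
    have hVst : star V = V := star_cfc_real _ q
    have e1 : star (z * U * s) * (z * U * s) = star (V * s) * (V * s) := by
      rw [star_mul, star_mul, star_mul, hst, hUst, hVst,
        show s * (U * star z) * (z * U * s) = s * (U * (star z * z) * U) * s by noncomm_ring,
        ← hq, hUU]
      noncomm_ring
    rw [hd, sq, ← CStarRing.norm_star_mul_self, e1, CStarRing.norm_star_mul_self,
      ← CStarRing.norm_self_mul_star, star_mul, hst, hVst,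
      show V * s * (s * V) = V * (s * s) * V by noncomm_ring, hss]
    have h0 : 0 ≤ V * p * V := by simpa [hVst] using star_left_conjugate_nonneg hp V
    have h1 : V * p * V ≤ V * q * V := by
      simpa [hVst] using star_left_conjugate_le_conjugate hle V
    refine (CStarAlgebra.norm_le_norm_of_nonneg_of_le h0 h1).trans ?_
    have e2 : V * q * V = cfc (fun t => √(max t 0) * Φ t * t * (√(max t 0) * Φ t)) q := by
      rw [cfc_mul (fun t => √(max t 0) * Φ t * t) (fun t => √(max t 0) * Φ t) q
          (hVc.continuousOn.mul continuousOn_id) hVc.continuousOn,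
        cfc_mul (fun t => √(max t 0) * Φ t) (fun t => t) q hVc.continuousOn continuousOn_id,
        cfc_id' ℝ q hqs]
    rw [e2]
    refine norm_cfc_le (by positivity) fun t ht => ?_
    have ht0 : 0 ≤ t := spectrum_nonneg_of_nonneg hq0 ht
    have key : ∀ d : ℝ, 0 < d → 0 ≤ √t - t * rootInv d t ∧ √t - t * rootInv d t ≤ √d := by
      intro d hd
      rw [rootInv, max_eq_left ht0, ← div_eq_mul_inv]
      have hp1 : 0 < √(t + d) := Real.sqrt_pos.2 (by linarith)
      have h2 := Real.mul_self_sqrt ht0
      have h3 := Real.mul_self_sqrt (show 0 ≤ t + d by linarith)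
      have h4 : √t ≤ √(t + d) := Real.sqrt_le_sqrt (by linarith)
      have h5 : √(t + d) ≤ √t + √d := by
        refine Real.sqrt_le_iff.2 ⟨by positivity, ?_⟩
        nlinarith [Real.mul_self_sqrt hd.le, Real.sqrt_nonneg t, Real.sqrt_nonneg d]
      constructor
      · rw [sub_nonneg, div_le_iff₀ hp1]
        nlinarith [Real.sqrt_nonneg t]
      · rw [sub_le_iff_le_add, ← sub_le_iff_le_add', le_div_iff₀ hp1]
        nlinarith [Real.sqrt_nonneg t, Real.sqrt_nonneg d]
    have hmono : ∀ i, N ≤ i → √(δ i) ≤ √(δ N) := fun i hi => by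
      refine Real.sqrt_le_sqrt ?_
      exact one_div_le_one_div_of_le (by positivity) (by exact_mod_cast Nat.succ_le_succ hi)
    obtain ⟨a1, a2⟩ := key (δ n) (hδ n)
    obtain ⟨b1, b2⟩ := key (δ m) (hδ m)
    have hn' := hmono n hn
    have hm' := hmono m hm
    simp only [max_eq_left ht0, Φ]
    rw [show √t * (rootInv (δ n) t - rootInv (δ m) t) * t *
          (√t * (rootInv (δ n) t - rootInv (δ m) t)) =
        (√t * √t) * t * (rootInv (δ n) t - rootInv (δ m) t) ^ 2 by ring, Real.mul_self_sqrt ht0,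
      Real.norm_of_nonneg (by positivity),
      show t * t * (rootInv (δ n) t - rootInv (δ m) t) ^ 2 =
        ((√t - t * rootInv (δ m) t) - (√t - t * rootInv (δ n) t)) ^ 2 by ring]
    nlinarith [Real.mul_self_sqrt (hδ N).le, Real.sqrt_nonneg (δ N)]
  have hcau : CauchySeq fun n => z * w n := by
    refine Metric.cauchySeq_iff.2 fun ε hε => ?_
    obtain ⟨N, hN⟩ := exists_nat_one_div_lt (show (0 : ℝ) < ε ^ 2 / 4 by positivity)
    refine ⟨N, fun n hn m hm => ?_⟩
    rw [dist_eq_norm]
    have := hbound n m N hn hm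
    simp only [δ] at this
    nlinarith [norm_nonneg (z * w n - z * w m)]
  obtain ⟨y, hy⟩ := cauchySeq_tendsto_of_complete hcau
  refine ⟨y, ?_, w, hy⟩
  have hlim : Tendsto (fun n => star (z * w n) * (z * w n)) atTop (𝓝 (star y * y)) :=
    hy.star.mul hy
  refine tendsto_nhds_unique hlim ?_
  rw [tendsto_iff_norm_sub_tendsto_zero]
  refine squeeze_zero (fun n => norm_nonneg _) (fun n => ?_)
    (tendsto_one_div_add_atTop_nhds_zero_nat (𝕜 := ℝ))
  let g : ℝ → ℝ := fun t => √(δ n / (max t 0 + δ n))
  have hgc : Continuous g := by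
    refine Real.continuous_sqrt.comp (Continuous.div (by fun_prop) (by fun_prop) fun t => ?_)
    have := le_max_right t 0
    have := hδ n
    linarith
  set G := cfc g q
  have e1 : cfc (rootInv (δ n)) q * q * cfc (rootInv (δ n)) q = 1 - G * G := by
    have hc := (continuous_rootInv (hδ n)).continuousOn (s := spectrum ℝ q)
    rw [cfc_sandwich hqs hc, ← cfc_mul g g q hgc.continuousOn hgc.continuousOn, ← cfc_const_one ℝ q hqs,
      ← cfc_sub (fun _ => (1 : ℝ)) (fun t => g t * g t) q continuousOn_const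
        (hgc.mul hgc).continuousOn]
    refine cfc_congr fun t ht => ?_
    have ht0 : 0 ≤ t := spectrum_nonneg_of_nonneg hq0 ht
    have := hδ n
    rw [rootInv_mul_self (hδ n) ht0]
    simp only [g, max_eq_left ht0]
    rw [Real.mul_self_sqrt (by positivity)]
    field_simp
    ring
  have hGst : star G = G := star_cfc_real g q
  have e2 : star (z * w n) * (z * w n) - p = -(star (G * s) * (G * s)) := by
    simp only [w, star_mul, hst, hGst, star_cfc_real]
    rw [show s * cfc (rootInv (δ n)) q * star z * (z * (cfc (rootInv (δ n)) q * s)) =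
      s * (cfc (rootInv (δ n)) q * (star z * z) * cfc (rootInv (δ n)) q) * s by noncomm_ring,
      ← hq, e1, ← hss]
    noncomm_ring
  rw [e2, norm_neg, CStarRing.norm_star_mul_self, ← CStarRing.norm_self_mul_star, star_mul, hst,
    hGst, show G * s * (s * G) = G * (s * s) * G by noncomm_ring, hss]
  have h0 : 0 ≤ G * p * G := by simpa [hGst] using star_left_conjugate_nonneg hp G
  have h1 : G * p * G ≤ G * q * G := by simpa [hGst] using star_left_conjugate_le_conjugate hle G
  refine (CStarAlgebra.norm_le_norm_of_nonneg_of_le h0 h1).trans ?_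
  have e3 : G * q * G = cfc (fun t => g t * t * g t) q := by
    rw [cfc_mul (fun t => g t * t) g q (hgc.continuousOn.mul continuousOn_id) hgc.continuousOn,
      cfc_mul g (fun t => t) q hgc.continuousOn continuousOn_id, cfc_id' ℝ q hqs]
  rw [e3]
  refine norm_cfc_le (by positivity) fun t ht => ?_
  have ht0 : 0 ≤ t := spectrum_nonneg_of_nonneg hq0 ht
  have := hδ n
  simp only [g, max_eq_left ht0]
  rw [mul_comm (√(δ n / (t + δ n))) t, mul_assoc, Real.mul_self_sqrt (by positivity),
    Real.norm_of_nonneg (by positivity), mul_div_assoc', div_le_iff₀ (by positivity)]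
  show t * δ n ≤ δ n * (t + δ n)
  nlinarith

end Vale.Agent.P101.Cuntz
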